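import Mathlib

set_option autoImplicit false

/-!
# P181, line TS: the accounting of missed classes

If a permutation of the letters moves a class wrongly, the total number of missed classes grows.
-/

open Finset

namespace Vale.Agent.P181.TS.H923

variable {α β γ : Type*} [Fintype α] [DecidableEq α] [Fintype β] [DecidableEq β] [DecidableEq γ]

/-- The class of the colour `i`. -/
def E (cl : α → β) (i : β) : Finset α := univ.filter fun u => cl u = i

/-- The number of the sets `S j` which do not meet `A`. -/
def mis (S : β → Finset α) (A : Finset α) : ℕ := (univ.filter fun j => Disjoint A (S j)).card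

omit [DecidableEq α] [Fintype β] in
lemma mem_E {cl : α → β} {i : β} {u : α} : u ∈ E cl i ↔ cl u = i := by simp [E]

omit [Fintype α] [DecidableEq β] [DecidableEq γ] in
lemma sum_mis (S : β → Finset α) (A : γ → Finset α) (U : Finset γ) :
    ∑ c ∈ U, mis S (A c) = ∑ j, (U.filter fun c => Disjoint (A c) (S j)).card := by
  simp only [mis, card_filter]
  exact sum_comm

omit [DecidableEq α] in
/-- Classes of a colouring are a partition. -/
lemma sum_card_E (cl : α → β) : ∑ i, (E cl i).card = Fintype.card α := by
  rw [← card_univ, card_eq_sum_card_fiberwise (f := cl) (t := univ) (fun _ _ => mem_univ _)]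
  rfl

/-- **[TS-ACC]** accounting of the missed classes, with a rational constant `p / q`. -/
theorem accQ (cl : α → β) (ρ : Equiv.Perm α) (e r : ℕ) (he : 0 < e) (hr2 : 2 * r ≤ e)
    (hE : ∀ i, e ≤ (E cl i).card ∧ (E cl i).card ≤ e + r)
    (hinj : Function.Injective fun i => (E cl i).card)
    (A : γ → Finset α) (U D : Finset γ) (p q z d : ℕ)
    (hU : ∀ (T : Finset α) (i : β), e ≤ T.card → T.card ≤ e + r →
      (∀ i', (T ∩ E cl i').card ≤ (T ∩ E cl i).card) → 1 ≤ (E cl i \ T).card →
      (T \ E cl i).card ≤ 2 * (E cl i \ T).card →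
      p * (E cl i \ T).card ≤ q * (U.filter fun c => Disjoint (A c) T).card)
    (hz : ∀ i, (D.filter fun c => Disjoint (A c) (E cl i)).card ≤ z)
    (hd : ∀ u, (D.filter fun c => u ∈ A c).card ≤ d)
    (hp : q * (2 * z + 4 * d * e) < p * e) (hne : ∃ u, cl (ρ u) ≠ cl u) :
    ∑ c ∈ D, mis (E cl) (A c) <
      ∑ c ∈ U, mis (E fun u => cl (ρ u)) (A c) + ∑ c ∈ D, mis (E fun u => cl (ρ u)) (A c) := by
  classical
  set T : β → Finset α := E fun u => cl (ρ u) with hTdef
  have hTcard : ∀ j, (T j).card = (E cl j).card := by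
    intro j
    apply card_bij (fun u _ => ρ u)
    · intro u hu
      rw [hTdef, mem_E] at hu
      rw [mem_E]
      exact hu
    · intro u _ v _ huv
      exact ρ.injective huv
    · intro v hv
      refine ⟨ρ.symm v, ?_, ρ.apply_symm_apply v⟩
      rw [hTdef, mem_E]
      simpa using mem_E.1 hv
  -- the class with the largest intersection
  have hex : ∀ j : β, ∃ i : β, ∀ i', (T j ∩ E cl i').card ≤ (T j ∩ E cl i).card := by
    intro j
    obtain ⟨i, -, hi⟩ := exists_max_image (univ : Finset β) (fun i' => (T j ∩ E cl i').card)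
      ⟨j, mem_univ j⟩
    exact ⟨i, fun i' => hi i' (mem_univ _)⟩
  choose f hf using hex
  let κ : β → ℕ := fun j => (E cl (f j) \ T j).card
  let s : β → ℕ := fun j => (T j \ E cl (f j)).card
  have hbal : ∀ j, (T j).card + κ j = (E cl (f j)).card + s j := by
    intro j
    have h1 := card_sdiff_add_card_inter (E cl (f j)) (T j)
    have h2 := card_sdiff_add_card_inter (T j) (E cl (f j))
    rw [inter_comm] at h1
    simp only [κ, s]
    omega
  let B : Finset β := univ.filter fun j => (E cl (f j)).card ≤ 2 * κ j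
  let Gd : Finset β := univ.filter fun j => ¬ (E cl (f j)).card ≤ 2 * κ j
  have hsplit : ∀ g : β → ℕ, ∑ j, g j = ∑ j ∈ B, g j + ∑ j ∈ Gd, g j := fun g =>
    (sum_filter_add_sum_filter_not univ _ g).symm
  -- injectivity on the good ones
  have hfinj : Set.InjOn f Gd := by
    intro j hj j' hj' hjj
    by_contra hne'
    have h1 : 2 * κ j < (E cl (f j)).card := by simpa [Gd] using hj
    have h2 : 2 * κ j' < (E cl (f j')).card := by simpa [Gd] using hj'
    have hdis : Disjoint (T j) (T j') := by
      rw [disjoint_left]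
      intro u hu hu'
      rw [hTdef, mem_E] at hu hu'
      exact hne' (hu.symm.trans hu')
    have h3 := card_sdiff_add_card_inter (E cl (f j)) (T j)
    have h4 := card_sdiff_add_card_inter (E cl (f j')) (T j')
    have h5 : ((E cl (f j) ∩ T j) ∪ (E cl (f j') ∩ T j')).card ≤ (E cl (f j)).card := by
      apply card_le_card
      intro u hu
      rw [mem_union, mem_inter, mem_inter] at hu
      rcases hu with hu | hu
      · exact hu.1
      · rw [hjj]; exact hu.1
    have h6 : Disjoint (E cl (f j) ∩ T j) (E cl (f j') ∩ T j') :=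
      Disjoint.mono inter_subset_right inter_subset_right hdis
    rw [card_union_of_disjoint h6] at h5
    simp only [κ] at h1 h2
    rw [← hjj] at h2 h4 h5
    omega
  have himg : (Gd.image f).card = Gd.card := card_image_of_injOn hfinj
  let I' : Finset β := univ \ Gd.image f
  have hcardI : I'.card = B.card := by
    have h1 : I'.card = Fintype.card β - Gd.card := by
      rw [← himg, ← card_univ]
      exact card_sdiff_of_subset (subset_univ _)
    have h2 : B.card + Gd.card = Fintype.card β := by
      rw [← card_univ]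
      exact card_filter_add_card_filter_not _
    omega
  -- the total
  have htot : ∑ j ∈ Gd, s j ≤ ∑ j ∈ Gd, κ j + B.card * r := by
    have h1 : ∑ j ∈ Gd, ((T j).card + κ j) = ∑ j ∈ Gd, ((E cl (f j)).card + s j) :=
      sum_congr rfl fun j _ => hbal j
    rw [sum_add_distrib, sum_add_distrib] at h1
    have h2 : ∑ i ∈ Gd.image f, (E cl i).card = ∑ j ∈ Gd, (E cl (f j)).card :=
      sum_image (f := fun i => (E cl i).card) hfinj
    have h3 : ∑ i ∈ Gd.image f, (E cl i).card + ∑ i ∈ I', (E cl i).card =
        Fintype.card α := by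
      rw [← sum_card_E cl, add_comm]
      exact sum_sdiff (subset_univ _)
    have h4 : ∑ j ∈ B, (T j).card + ∑ j ∈ Gd, (T j).card = Fintype.card α := by
      rw [← hsplit, ← sum_card_E cl]
      exact sum_congr rfl fun j _ => hTcard j
    have h5 : ∑ i ∈ I', (E cl i).card ≤ B.card * (e + r) := by
      rw [← hcardI]
      exact sum_le_card_nsmul _ _ _ fun i _ => (hE i).2
    have h6 : B.card * e ≤ ∑ j ∈ B, (T j).card := by
      have := card_nsmul_le_sum B (fun j => (T j).card) e fun j _ => by
        rw [hTcard]; exact (hE j).1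
      simpa using this
    rw [mul_add] at h5
    omega
  -- bad ones
  have hBκ : ∀ j ∈ B, e ≤ 2 * κ j := by
    intro j hj
    have h1 : (E cl (f j)).card ≤ 2 * κ j := by simpa [B] using hj
    exact (hE _).1.trans h1
  have hBs : ∀ j ∈ B, s j ≤ 2 * κ j := by
    intro j hj
    have h1 : (E cl (f j)).card ≤ 2 * κ j := by simpa [B] using hj
    have h2 := hbal j
    have h3 := hTcard j
    have h4 := hE j
    have h5 := hE (f j)
    omega
  let G1 : Finset β := Gd.filter fun j => s j ≤ 2 * κ j
  let G2 : Finset β := Gd.filter fun j => ¬ s j ≤ 2 * κ j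
  have hsplit2 : ∀ g : β → ℕ, ∑ j ∈ Gd, g j = ∑ j ∈ G1, g j + ∑ j ∈ G2, g j := fun g =>
    (sum_filter_add_sum_filter_not Gd _ g).symm
  set KB := ∑ j ∈ B, κ j with hKB
  set K1 := ∑ j ∈ G1, κ j with hK1
  have hBr : B.card * r ≤ KB := by
    have := card_nsmul_le_sum B κ r fun j hj => by have := hBκ j hj; omega
    simpa using this
  have hBe : B.card * e ≤ 2 * KB := by
    have := card_nsmul_le_sum B (fun j => 2 * κ j) e fun j hj => hBκ j hj
    rw [← mul_sum] at this
    simpa using this
  have hs1 : ∑ j ∈ G1, s j ≤ 2 * K1 := by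
    rw [hK1, mul_sum]
    exact sum_le_sum fun j hj => (mem_filter.1 hj).2
  have hκ2 : 2 * ∑ j ∈ G2, κ j + G2.card ≤ ∑ j ∈ G2, s j := by
    have h1 : ∑ j ∈ G2, (2 * κ j + 1) ≤ ∑ j ∈ G2, s j :=
      sum_le_sum fun j hj => by
        have := (mem_filter.1 hj).2
        omega
    rw [sum_add_distrib, ← mul_sum, sum_const, smul_eq_mul, mul_one] at h1
    exact h1
  have htot2 : ∑ j ∈ G1, s j + ∑ j ∈ G2, s j ≤ K1 + ∑ j ∈ G2, κ j + B.card * r := by
    rw [← hsplit2, hK1, ← hsplit2]
    exact htot
  have hsG : ∑ j ∈ Gd, s j ≤ 4 * (K1 + KB) := by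
    rw [hsplit2]
    omega
  -- `K = 0` is impossible
  have hK : 0 < K1 + KB := by
    by_contra hcon
    have hK1' : K1 = 0 := by omega
    have hKB' : KB = 0 := by omega
    have hBe0 : B = ∅ := by
      rw [← card_eq_zero]
      have : B.card * e ≤ 0 := by omega
      rcases Nat.mul_eq_zero.1 (Nat.le_zero.1 this) with h | h
      · exact h
      · omega
    have hG2e : G2 = ∅ := by
      rw [← card_eq_zero]
      omega
    obtain ⟨u, hu⟩ := hne
    have hall : ∀ j, T j = E cl j := by
      intro j
      have hjG : j ∈ Gd := by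
        have : j ∈ B ∨ j ∈ Gd := by
          by_cases h : (E cl (f j)).card ≤ 2 * κ j
          · left; simpa [B] using h
          · right; simpa [Gd] using h
        rcases this with h | h
        · rw [hBe0] at h
          exact absurd h (notMem_empty _)
        · exact h
      have hj1 : j ∈ G1 := by
        by_cases h : s j ≤ 2 * κ j
        · exact mem_filter.2 ⟨hjG, h⟩
        · have h1 : j ∈ G2 := mem_filter.2 ⟨hjG, h⟩
          rw [hG2e] at h1
          exact absurd h1 (notMem_empty _)
      have hκ0 : κ j = 0 := by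
        have h1 : κ j ≤ K1 := single_le_sum (f := κ) (fun _ _ => Nat.zero_le _) hj1
        omega
      have hs0 : s j = 0 := by
        have h1 := (mem_filter.1 hj1).2
        omega
      have h1 : E cl (f j) ⊆ T j := by
        rw [← sdiff_eq_empty_iff_subset]
        exact card_eq_zero.1 hκ0
      have h2 : T j ⊆ E cl (f j) := by
        rw [← sdiff_eq_empty_iff_subset]
        exact card_eq_zero.1 hs0
      have h3 : T j = E cl (f j) := subset_antisymm h2 h1
      have h4 : f j = j := by
        apply hinj
        show (E cl (f j)).card = (E cl j).card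
        rw [← h3, hTcard]
      rw [h3, h4]
    have h1 : u ∈ T (cl (ρ u)) := by rw [hTdef, mem_E]
    rw [hall, mem_E] at h1
    exact hu h1.symm
  -- damage
  have hdam : p * (K1 + KB) ≤ q * ∑ c ∈ U, mis T (A c) := by
    rw [sum_mis, mul_sum]
    have h1 : ∀ j ∈ G1 ∪ B, p * κ j ≤ q * (U.filter fun c => Disjoint (A c) (T j)).card := by
      intro j hj
      have hsj : s j ≤ 2 * κ j := by
        rcases mem_union.1 hj with h | h
        · exact (mem_filter.1 h).2
        · exact hBs j h
      rcases Nat.eq_zero_or_pos (κ j) with h0 | h0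
      · rw [h0, mul_zero]
        exact Nat.zero_le _
      · refine hU (T j) (f j) ?_ ?_ (hf j) h0 hsj
        · rw [hTcard]; exact (hE j).1
        · rw [hTcard]; exact (hE j).2
    have hdisj : Disjoint G1 B := by
      rw [disjoint_left]
      intro j hj hj'
      have h2 : ¬ (E cl (f j)).card ≤ 2 * κ j := by
        have := (mem_filter.1 hj).1
        simpa [Gd] using this
      have h3 : (E cl (f j)).card ≤ 2 * κ j := by simpa [B] using hj'
      exact h2 h3
    calc p * (K1 + KB) = ∑ j ∈ G1 ∪ B, p * κ j := by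
          rw [sum_union hdisj, ← mul_sum, ← mul_sum, mul_add]
      _ ≤ ∑ j ∈ G1 ∪ B, q * (U.filter fun c => Disjoint (A c) (T j)).card := sum_le_sum h1
      _ ≤ _ := sum_le_sum_of_subset (subset_univ _)
  -- savings
  have hsav : ∑ c ∈ D, mis (E cl) (A c) ≤
      ∑ c ∈ D, mis T (A c) + (d * ∑ j ∈ Gd, s j + B.card * z) := by
    rw [sum_mis, sum_mis]
    have h1 : ∑ i, (D.filter fun c => Disjoint (A c) (E cl i)).card =
        ∑ i ∈ I', (D.filter fun c => Disjoint (A c) (E cl i)).card +
        ∑ i ∈ Gd.image f, (D.filter fun c => Disjoint (A c) (E cl i)).card :=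
      (sum_sdiff (subset_univ _)).symm
    have h2 : ∑ i ∈ I', (D.filter fun c => Disjoint (A c) (E cl i)).card ≤ B.card * z := by
      rw [← hcardI]
      exact sum_le_card_nsmul _ _ _ fun i _ => hz i
    have h3 : ∑ i ∈ Gd.image f, (D.filter fun c => Disjoint (A c) (E cl i)).card =
        ∑ j ∈ Gd, (D.filter fun c => Disjoint (A c) (E cl (f j))).card := sum_image hfinj
    have h4 : ∀ j ∈ Gd, (D.filter fun c => Disjoint (A c) (E cl (f j))).card ≤
        (D.filter fun c => Disjoint (A c) (T j)).card + d * s j := by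
      intro j _
      have h5 : (D.filter fun c => Disjoint (A c) (E cl (f j))) ⊆
          (D.filter fun c => Disjoint (A c) (T j)) ∪
            (T j \ E cl (f j)).biUnion fun u => D.filter fun c => u ∈ A c := by
        intro c hc
        rw [mem_filter] at hc
        rw [mem_union, mem_filter, mem_biUnion]
        by_cases h : Disjoint (A c) (T j)
        · exact Or.inl ⟨hc.1, h⟩
        · right
          rw [not_disjoint_iff] at h
          obtain ⟨u, hu1, hu2⟩ := h
          refine ⟨u, mem_sdiff.2 ⟨hu2, fun hu3 => ?_⟩, mem_filter.2 ⟨hc.1, hu1⟩⟩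
          exact (disjoint_left.1 hc.2 hu1) hu3
      refine (card_le_card h5).trans ((card_union_le _ _).trans ?_)
      apply Nat.add_le_add_left
      refine card_biUnion_le.trans ?_
      have h6 := sum_le_card_nsmul (T j \ E cl (f j))
        (fun u => (D.filter fun c => u ∈ A c).card) d fun u _ => hd u
      rw [smul_eq_mul, mul_comm] at h6
      exact h6
    have h7 : ∑ j ∈ Gd, (D.filter fun c => Disjoint (A c) (E cl (f j))).card ≤
        ∑ j, (D.filter fun c => Disjoint (A c) (T j)).card + d * ∑ j ∈ Gd, s j := by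
      refine (sum_le_sum h4).trans ?_
      rw [sum_add_distrib, ← mul_sum]
      apply Nat.add_le_add_right
      exact sum_le_sum_of_subset (subset_univ _)
    omega
  -- comparison
  set K := K1 + KB with hKdef
  set S := d * ∑ j ∈ Gd, s j + B.card * z with hS
  have hfin : q * S < p * K := by
    have h1 : d * ∑ j ∈ Gd, s j ≤ d * (4 * K) := Nat.mul_le_mul_left _ hsG
    have h2 : e * (B.card * z) ≤ 2 * K * z := by
      calc e * (B.card * z) = (B.card * e) * z := by ring
        _ ≤ (2 * KB) * z := Nat.mul_le_mul_right _ hBe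
        _ ≤ 2 * K * z := Nat.mul_le_mul_right _ (by omega)
    have h4 : e * S ≤ K * (2 * z + 4 * d * e) := by
      calc e * S = e * (d * ∑ j ∈ Gd, s j) + e * (B.card * z) := by rw [hS]; ring
        _ ≤ e * (d * (4 * K)) + 2 * K * z := by
            have := Nat.mul_le_mul_left e h1
            omega
        _ = K * (2 * z + 4 * d * e) := by ring
    have h3 : e * (q * S) < e * (p * K) := by
      calc e * (q * S) = q * (e * S) := by ring
        _ ≤ q * (K * (2 * z + 4 * d * e)) := Nat.mul_le_mul_left _ h4
        _ = K * (q * (2 * z + 4 * d * e)) := by ring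
        _ < K * (p * e) := Nat.mul_lt_mul_of_pos_left hp hK
        _ = e * (p * K) := by ring
    exact Nat.lt_of_mul_lt_mul_left h3
  have h5 : S < ∑ c ∈ U, mis T (A c) := by
    by_contra hcon
    push Not at hcon
    have := Nat.mul_le_mul_left q hcon
    omega
  omega

/-- **[TS-ACC]** accounting of the missed classes. -/
theorem acc (cl : α → β) (ρ : Equiv.Perm α) (e r : ℕ) (he : 0 < e) (hr2 : 2 * r ≤ e)
    (hE : ∀ i, e ≤ (E cl i).card ∧ (E cl i).card ≤ e + r)
    (hinj : Function.Injective fun i => (E cl i).card)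
    (A : γ → Finset α) (U D : Finset γ) (p z d : ℕ)
    (hU : ∀ (T : Finset α) (i : β), e ≤ T.card → T.card ≤ e + r →
      (∀ i', (T ∩ E cl i').card ≤ (T ∩ E cl i).card) → 1 ≤ (E cl i \ T).card →
      (T \ E cl i).card ≤ 2 * (E cl i \ T).card →
      p * (E cl i \ T).card ≤ (U.filter fun c => Disjoint (A c) T).card)
    (hz : ∀ i, (D.filter fun c => Disjoint (A c) (E cl i)).card ≤ z)
    (hd : ∀ u, (D.filter fun c => u ∈ A c).card ≤ d)
    (hp : 2 * z + 4 * d * e < p * e) (hne : ∃ u, cl (ρ u) ≠ cl u) :
    ∑ c ∈ D, mis (E cl) (A c) <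
      ∑ c ∈ U, mis (E fun u => cl (ρ u)) (A c) + ∑ c ∈ D, mis (E fun u => cl (ρ u)) (A c) :=
  accQ cl ρ e r he hr2 hE hinj A U D p 1 z d (fun T i h1 h2 h3 h4 h5 => by
    rw [one_mul]; exact hU T i h1 h2 h3 h4 h5) hz hd (by rwa [one_mul]) hne

end Vale.Agent.P181.TS.H923
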