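import Vale.Agent.P181.TS.Spec
import Vale.Agent.P181.TS.H923.Acc

set_option autoImplicit false

/-!
# P181, line TS: [TS-ACC]
-/

open Finset

namespace Vale.Agent.P181.TS.H923

open Vale.Agent.P181.TS Vale.Agent.P181.H59

lemma disjoint_E_iff {α β : Type*} [Fintype α] [DecidableEq β] {cl : α → β} {A : Finset α}
    {i : β} : Disjoint A (E cl i) ↔ ∀ u ∈ A, cl u ≠ i := by
  rw [disjoint_left]
  constructor
  · intro h u hu h1
    exact h hu (mem_E.2 h1)
  · intro h u hu h1
    exact h u hu (mem_E.1 h1)

lemma mis_eq {b R : ℕ} (cl : Fin b → Fin R) (A : Finset (Fin b)) :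
    mis (E cl) A = (miss cl A).card := by
  rw [mis, miss]
  congr 1
  apply filter_congr
  intro i _
  exact disjoint_E_iff

lemma mis_eq' {b R : ℕ} (cl : Fin b → Fin R) (ρ : Equiv.Perm (Fin b)) (A : Finset (Fin b)) :
    mis (E fun u => cl (ρ u)) A = (miss cl (A.image ρ)).card := by
  rw [mis, miss]
  congr 1
  apply filter_congr
  intro i _
  rw [disjoint_E_iff]
  constructor
  · intro h u hu
    obtain ⟨v, hv, rfl⟩ := mem_image.1 hu
    exact h v hv
  · intro h u hu
    exact h (ρ u) (mem_image_of_mem _ hu)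

/-- **[TS-ACC]** -/
theorem accStmt : AccStmt := by
  classical
  intro b R e C NU ND dD z cl A B hR he hC hE hmono hU hdB hz hnum ρ
  by_cases h : ∀ u, cl (ρ u) = cl u
  · exact Or.inl h
  right
  have hne : ∃ u, cl (ρ u) ≠ cl u := by
    by_contra hcon
    push Not at hcon
    exact h hcon
  have he0 : 0 < e := by omega
  have hinj : Function.Injective fun i => (E cl i).card := by
    intro i j hij
    rcases lt_trichotomy i j with h1 | h1 | h1
    · exact absurd hij (hmono i j h1).ne
    · exact h1
    · exact absurd hij.symm (hmono j i h1).ne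
  have key := accQ (γ := Fin NU ⊕ Fin ND) cl ρ e R he0 (by omega) (fun i => hE i) hinj
    (Sum.elim A B) (univ.map Function.Embedding.inl) (univ.map Function.Embedding.inr)
    NU (C * e) z dD ?_ ?_ ?_ ?_ hne
  · rw [sum_map, sum_map, sum_map] at key
    simp only [Function.Embedding.inl_apply, Function.Embedding.inr_apply, Sum.elim_inl,
      Sum.elim_inr] at key
    rw [sum_congr rfl fun d _ => mis_eq cl (B d), sum_congr rfl fun d _ => mis_eq' cl ρ (B d),
      sum_congr rfl fun c _ => mis_eq' cl ρ (A c)] at key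
    rw [add_comm (∑ d, (miss cl ((B d).image ρ)).card)]
    exact key
  · intro T i _ h2 h3 _ h5
    have h6 := hU T i h2 h3 h5
    rw [filter_map, card_map]
    exact h6
  · intro i
    rw [filter_map, card_map]
    refine le_trans (card_le_card ?_) (hz i)
    intro d hd
    rw [mem_filter] at hd ⊢
    refine ⟨hd.1, ?_⟩
    rw [miss, mem_filter]
    exact ⟨mem_univ _, disjoint_E_iff.1 hd.2⟩
  · intro u
    rw [filter_map, card_map]
    exact hdB u
  · calc C * e * (2 * z + 4 * dD * e) = (2 * C * z + 4 * C * e * dD) * e := by ring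
      _ < NU * e := Nat.mul_lt_mul_of_pos_right hnum he0

end Vale.Agent.P181.TS.H923
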